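import Crest.Agent.X37.Gr.Defs

/-!
# Row 37: the classes of partition connectivity
-/

set_option autoImplicit false
set_option linter.unusedSectionVars false

namespace Crest.Agent.X37

open Finset

variable {V E : Type} [DecidableEq V] {src tgt : E → V} {k k' : ℝ} {A B : Finset E}
  {S T : Finset V}

theorem mem_inside {e : E} : e ∈ inside src tgt A S ↔ e ∈ A ∧ src e ∈ S ∧ tgt e ∈ S := by
  simp [inside]

theorem mem_cross {ι : Type} [DecidableEq ι] {f : V → ι} {e : E} :
    e ∈ cross src tgt A S f ↔ e ∈ A ∧ src e ∈ S ∧ tgt e ∈ S ∧ f (src e) ≠ f (tgt e) := by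
  simp [cross]

theorem inside_mono (hA : A ⊆ B) (hS : S ⊆ T) : inside src tgt A S ⊆ inside src tgt B T :=
  fun _ he => mem_inside.2 ⟨hA (mem_inside.1 he).1, hS (mem_inside.1 he).2.1,
    hS (mem_inside.1 he).2.2⟩

theorem cross_mono {ι : Type} [DecidableEq ι] (hA : A ⊆ B) (hS : S ⊆ T) (f : V → ι) :
    cross src tgt A S f ⊆ cross src tgt B T f := fun _ he => by
  obtain ⟨h1, h2, h3, h4⟩ := mem_cross.1 he
  exact mem_cross.2 ⟨hA h1, hS h2, hS h3, h4⟩

theorem cross_subset {ι : Type} [DecidableEq ι] (f : V → ι) : cross src tgt A S f ⊆ A :=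
  Finset.filter_subset _ _

theorem cross_subset_inside {ι : Type} [DecidableEq ι] (f : V → ι) :
    cross src tgt A S f ⊆ inside src tgt A S := fun _ he => by
  obtain ⟨h1, h2, h3, -⟩ := mem_cross.1 he
  exact mem_inside.2 ⟨h1, h2, h3⟩

/-- a coarser labelling has fewer labels -/
theorem card_image_le_of_imp {ι κ : Type} [DecidableEq ι] [DecidableEq κ] {f : V → ι} {g : V → κ}
    (h : ∀ u ∈ S, ∀ v ∈ S, g u = g v → f u = f v) : (S.image f).card ≤ (S.image g).card := by
  have h1 : S.image f = (S.image fun v => (f v, g v)).image Prod.fst := by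
    rw [Finset.image_image]; rfl
  have h2 : S.image g = (S.image fun v => (f v, g v)).image Prod.snd := by
    rw [Finset.image_image]; rfl
  rw [h1, h2, Finset.card_image_of_injOn (f := Prod.snd)]
  · exact Finset.card_image_le
  · intro x hx y hy e
    obtain ⟨u, hu, rfl⟩ := Finset.mem_image.1 (Finset.mem_coe.1 hx)
    obtain ⟨v, hv, rfl⟩ := Finset.mem_image.1 (Finset.mem_coe.1 hy)
    exact Prod.ext (h u hu v hv e) e

/-- two labellings with the same kernel have the same number of labels -/
theorem card_image_congr {ι κ : Type} [DecidableEq ι] [DecidableEq κ] {f : V → ι} {g : V → κ}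
    (h : ∀ u ∈ S, ∀ v ∈ S, f u = f v ↔ g u = g v) : (S.image f).card = (S.image g).card :=
  le_antisymm (card_image_le_of_imp fun u hu v hv => (h u hu v hv).2)
    (card_image_le_of_imp fun u hu v hv => (h u hu v hv).1)

theorem cross_congr {ι κ : Type} [DecidableEq ι] [DecidableEq κ] {f : V → ι} {g : V → κ}
    (h : ∀ u ∈ S, ∀ v ∈ S, f u = f v ↔ g u = g v) :
    cross src tgt A S f = cross src tgt A S g := by
  ext e
  simp only [mem_cross]
  constructor
  · rintro ⟨h1, h2, h3, h4⟩; exact ⟨h1, h2, h3, fun e => h4 ((h _ h2 _ h3).2 e)⟩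
  · rintro ⟨h1, h2, h3, h4⟩; exact ⟨h1, h2, h3, fun e => h4 ((h _ h2 _ h3).1 e)⟩

omit [DecidableEq V] in
/-- every labelling has the kernel of a labelling by vertices -/
theorem exists_relabel {ι : Type} (f : V → ι) : ∃ g : V → V, ∀ u v, f u = f v ↔ g u = g v := by
  refine ⟨fun v => Classical.epsilon (p := fun w => f w = f v) (h := ⟨v⟩), fun u v => ⟨?_, ?_⟩⟩
  · intro e; simp only [e]
  · intro e
    have h1 : ∀ v, f (Classical.epsilon (p := fun w => f w = f v) (h := ⟨v⟩)) = f v :=
      fun v => Classical.epsilon_spec (p := fun w => f w = f v) ⟨v, rfl⟩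
    rw [← h1 u, ← h1 v]
    exact congrArg f e

/-- partition connectivity for labels in any type -/
theorem PCOn.label {ι : Type} [DecidableEq ι] (h : PCOn src tgt k A S) (f : V → ι) :
    k * (((S.image f).card : ℝ) - 1) ≤ (cross src tgt A S f).card := by
  obtain ⟨g, hg⟩ := exists_relabel f
  rw [card_image_congr fun u _ v _ => hg u v, cross_congr fun u _ v _ => hg u v]
  exact h g

theorem PCOn.mono (h : PCOn src tgt k A S) (hA : A ⊆ B) : PCOn src tgt k B S := fun f =>
  (h f).trans (by exact_mod_cast Finset.card_le_card (cross_mono hA Subset.rfl f))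

theorem PCOn.of_le (h : PCOn src tgt k A S) (hS : S.Nonempty) (hk : k' ≤ k) :
    PCOn src tgt k' A S := fun f => by
  refine le_trans (mul_le_mul_of_nonneg_right hk ?_) (h f)
  have : 1 ≤ (S.image f).card := Finset.card_pos.2 (hS.image f)
  have : (1 : ℝ) ≤ (S.image f).card := by exact_mod_cast this
  linarith


theorem pcOn_singleton (v : V) : PCOn src tgt k A {v} := fun f => by simp

/-- (P2) a labelling that is not constant on a partition-connected set is crossed -/
theorem PCOn.exists_cross {ι : Type} [DecidableEq ι] (h : PCOn src tgt k A S) (hk : 0 < k)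
    {f : V → ι} {u v : V} (hu : u ∈ S) (hv : v ∈ S) (hf : f u ≠ f v) :
    ∃ e ∈ A, src e ∈ S ∧ tgt e ∈ S ∧ f (src e) ≠ f (tgt e) := by
  have h1 : 1 < (S.image f).card := Finset.one_lt_card.2
    ⟨_, Finset.mem_image_of_mem f hu, _, Finset.mem_image_of_mem f hv, hf⟩
  have h2 : (1 : ℝ) < (S.image f).card := by exact_mod_cast h1
  have h3 : (0 : ℝ) < (cross src tgt A S f).card := lt_of_lt_of_le (by nlinarith) (h.label f)
  obtain ⟨e, he⟩ := Finset.card_pos.1 (by exact_mod_cast h3 : 0 < (cross src tgt A S f).card)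
  exact ⟨e, (mem_cross.1 he).1, (mem_cross.1 he).2⟩

/-- (P2) a partition-connected set is connected by edges inside it -/
theorem PCOn.reflTransGen (h : PCOn src tgt k A S) (hk : 0 < k) {u v : V} (hu : u ∈ S)
    (hv : v ∈ S) : Relation.ReflTransGen (fun a b => a ∈ S ∧ b ∈ S ∧
      ∃ e ∈ A, (src e = a ∧ tgt e = b) ∨ (src e = b ∧ tgt e = a)) u v := by
  classical
  by_contra hn
  set r := fun a b => a ∈ S ∧ b ∈ S ∧
    ∃ e ∈ A, (src e = a ∧ tgt e = b) ∨ (src e = b ∧ tgt e = a) with hr
  obtain ⟨e, he, h1, h2, h3⟩ := h.exists_cross hk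
    (f := fun w => decide (Relation.ReflTransGen r u w)) hu hv
    (by simp [hn, Relation.ReflTransGen.refl])
  refine h3 (decide_eq_decide.2 ⟨fun h4 => h4.tail ⟨h1, h2, e, he, Or.inl ⟨rfl, rfl⟩⟩,
    fun h4 => h4.tail ⟨h2, h1, e, he, Or.inr ⟨rfl, rfl⟩⟩⟩)

/-- merge all labels that occur on `T` -/
def mrg (T : Finset V) (t : V) (f : V → V) (v : V) : V := if f v ∈ T.image f then f t else f v

theorem mrg_of_mem {t v : V} (f : V → V) (hv : v ∈ T) : mrg T t f v = f t :=
  if_pos (Finset.mem_image_of_mem f hv)

theorem mrg_congr {t u v : V} {f : V → V} (h : f u = f v) : mrg T t f u = mrg T t f v := by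
  simp only [mrg, h]

theorem good_of_mrg [DecidableEq E] (hT : PCOn src tgt k A T) (hTS : T ⊆ S) {t : V} (ht : t ∈ T)
    (f : V → V) (h : k * (((S.image (mrg T t f)).card : ℝ) - 1)
      ≤ (cross src tgt A S (mrg T t f)).card) :
    k * (((S.image f).card : ℝ) - 1) ≤ (cross src tgt A S f).card := by
  have e1 : S.image (mrg T t f) = insert (f t) (S.image f \ T.image f) := by
    ext c
    simp only [Finset.mem_insert, Finset.mem_sdiff]
    constructor
    · intro hc
      obtain ⟨v, hv, rfl⟩ := Finset.mem_image.1 hc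
      unfold mrg
      split_ifs with h1
      · exact Or.inl rfl
      · exact Or.inr ⟨Finset.mem_image_of_mem f hv, h1⟩
    · rintro (rfl | ⟨h1, h2⟩)
      · exact Finset.mem_image.2 ⟨t, hTS ht, mrg_of_mem f ht⟩
      · obtain ⟨v, hv, rfl⟩ := Finset.mem_image.1 h1
        exact Finset.mem_image.2 ⟨v, hv, if_neg h2⟩
  have e2 : (S.image (mrg T t f)).card + (T.image f).card = (S.image f).card + 1 := by
    rw [e1, Finset.card_insert_of_notMem (by simp [Finset.mem_image_of_mem f ht]),
      Finset.card_sdiff_of_subset (Finset.image_subset_image hTS)]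
    have := Finset.card_le_card (Finset.image_subset_image (f := f) hTS)
    omega
  have e3 : (cross src tgt A S (mrg T t f)).card + (cross src tgt A T f).card
      ≤ (cross src tgt A S f).card := by
    rw [← Finset.card_union_of_disjoint]
    · refine Finset.card_le_card (Finset.union_subset (fun e he => ?_)
        (cross_mono Subset.rfl hTS f))
      obtain ⟨h1, h2, h3, h4⟩ := mem_cross.1 he
      exact mem_cross.2 ⟨h1, h2, h3, fun h5 => h4 (mrg_congr h5)⟩
    · rw [Finset.disjoint_left]
      intro e he he'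
      obtain ⟨-, h2, h3, -⟩ := mem_cross.1 he'
      exact (mem_cross.1 he).2.2.2 ((mrg_of_mem f h2).trans (mrg_of_mem f h3).symm)
  have e2' : ((S.image (mrg T t f)).card : ℝ) + (T.image f).card = (S.image f).card + 1 := by
    exact_mod_cast e2
  have e3' : ((cross src tgt A S (mrg T t f)).card : ℝ) + (cross src tgt A T f).card
      ≤ (cross src tgt A S f).card := by exact_mod_cast e3
  have h2 := hT f
  have : k * (((S.image f).card : ℝ) - 1) = k * (((S.image (mrg T t f)).card : ℝ) - 1)
      + k * (((T.image f).card : ℝ) - 1) := by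
    rw [← mul_add]; congr 1; linarith
  linarith

/-- contraction: it suffices to test labellings that are constant on partition-connected subsets -/
theorem pcOn_of_const (C : Finset (Finset V)) (hC : ∀ T ∈ C, T ⊆ S ∧ PCOn src tgt k A T)
    (h : ∀ f : V → V, (∀ T ∈ C, ∀ u ∈ T, ∀ v ∈ T, f u = f v) →
      k * (((S.image f).card : ℝ) - 1) ≤ (cross src tgt A S f).card) :
    PCOn src tgt k A S := by
  classical
  induction C using Finset.induction_on with
  | empty => exact fun f => h f (by simp)
  | insert T C _ ih =>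
    refine ih (fun T' hT' => hC T' (Finset.mem_insert_of_mem hT')) fun f hf => ?_
    rcases T.eq_empty_or_nonempty with rfl | ⟨t, ht⟩
    · exact h f (by simpa using hf)
    · obtain ⟨h1, h2⟩ := hC T (Finset.mem_insert_self _ _)
      refine good_of_mrg h2 h1 ht f (h _ fun T' hT' u hu v hv => ?_)
      rcases Finset.mem_insert.1 hT' with rfl | hT'
      · rw [mrg_of_mem f hu, mrg_of_mem f hv]
      · exact mrg_congr (hf T' hT' u hu v hv)

theorem PCOn.union (hS : PCOn src tgt k A S) (hT : PCOn src tgt k A T) {v : V} (h1 : v ∈ S)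
    (h2 : v ∈ T) : PCOn src tgt k A (S ∪ T) := by
  refine pcOn_of_const {S} (by simpa using hS) fun f hf => ?_
  have e : (S ∪ T).image f = T.image f := by
    refine Subset.antisymm (fun c hc => ?_) (Finset.image_subset_image Finset.subset_union_right)
    obtain ⟨w, hw, rfl⟩ := Finset.mem_image.1 hc
    rcases Finset.mem_union.1 hw with hw | hw
    · exact Finset.mem_image.2 ⟨v, h2, hf S (by simp) v h1 w hw⟩
    · exact Finset.mem_image_of_mem f hw
  rw [e]
  exact (hT f).trans (Nat.cast_le.2 (Finset.card_le_card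
    (cross_mono Subset.rfl Finset.subset_union_right f)))

/-! ### the equivalence relation -/

theorem Rel.refl (v : V) : Rel src tgt k A v v := ⟨{v}, by simp, by simp, pcOn_singleton v⟩

theorem Rel.symm {u v : V} (h : Rel src tgt k A u v) : Rel src tgt k A v u := by
  obtain ⟨S, h1, h2, h3⟩ := h; exact ⟨S, h2, h1, h3⟩

theorem Rel.trans {u v w : V} (h : Rel src tgt k A u v) (h' : Rel src tgt k A v w) :
    Rel src tgt k A u w := by
  obtain ⟨S, h1, h2, h3⟩ := h
  obtain ⟨T, h4, h5, h6⟩ := h'
  exact ⟨S ∪ T, Finset.mem_union_left _ h1, Finset.mem_union_right _ h5, h3.union h6 h2 h4⟩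

/-- (P1) -/
theorem Rel.mono {u v : V} (h : Rel src tgt k A u v) (hA : A ⊆ B) : Rel src tgt k B u v := by
  obtain ⟨S, h1, h2, h3⟩ := h; exact ⟨S, h1, h2, h3.mono hA⟩

theorem Rel.of_le {u v : V} (h : Rel src tgt k A u v) (hk : k' ≤ k) : Rel src tgt k' A u v := by
  obtain ⟨S, h1, h2, h3⟩ := h; exact ⟨S, h1, h2, h3.of_le ⟨u, h1⟩ hk⟩

theorem PCOn.rel (h : PCOn src tgt k A S) {u v : V} (hu : u ∈ S) (hv : v ∈ S) :
    Rel src tgt k A u v := ⟨S, hu, hv, h⟩

theorem rel_cls (v : V) : Rel src tgt k A (cls src tgt k A v) v :=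
  Classical.epsilon_spec (p := fun w => Rel src tgt k A w v) ⟨v, Rel.refl v⟩

theorem cls_eq_iff {u v : V} : cls src tgt k A u = cls src tgt k A v ↔ Rel src tgt k A u v := by
  constructor
  · intro h
    exact (rel_cls u).symm.trans (h ▸ rel_cls v)
  · intro h
    have : (fun w => Rel src tgt k A w u) = fun w => Rel src tgt k A w v :=
      funext fun w => propext ⟨fun h1 => h1.trans h, fun h1 => h1.trans h.symm⟩
    unfold cls
    simp only [this]


/-- (P1) for labels -/
theorem cls_mono (hA : A ⊆ B) {u v : V} (h : cls src tgt k A u = cls src tgt k A v) :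
    cls src tgt k B u = cls src tgt k B v := cls_eq_iff.2 ((cls_eq_iff.1 h).mono hA)

/-- (P2) related vertices are joined by a chain of edges inside their class -/
theorem Rel.reflTransGen (hk : 0 < k) {u v : V} (h : Rel src tgt k A u v) :
    Relation.ReflTransGen (fun a b => Rel src tgt k A a b ∧
      ∃ e ∈ A, (src e = a ∧ tgt e = b) ∨ (src e = b ∧ tgt e = a)) u v := by
  obtain ⟨S, h1, h2, h3⟩ := h
  exact Relation.ReflTransGen.mono (fun a b h => ⟨h3.rel h.1 h.2.1, h.2.2⟩) _ _
    (h3.reflTransGen hk h1 h2)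

/-- without edges (or with loops only) the classes are singletons -/
theorem Rel.eq_of_loops (hk : 0 < k) (hA : ∀ e ∈ A, src e = tgt e) {u v : V}
    (h : Rel src tgt k A u v) : u = v := by
  obtain ⟨S, h1, h2, h3⟩ := h
  by_contra hn
  obtain ⟨e, he, -, -, h4⟩ := h3.exists_cross hk (f := id) h1 h2 hn
  exact h4 (hA e he)

theorem exists_pcOn_superset {v : V} (W : Finset V) (hW : ∀ w ∈ W, Rel src tgt k A v w) :
    ∃ S, W ⊆ S ∧ v ∈ S ∧ PCOn src tgt k A S := by
  induction W using Finset.induction_on with
  | empty => exact ⟨{v}, by simp, by simp, pcOn_singleton v⟩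
  | insert w W _ ih =>
    obtain ⟨S, h1, h2, h3⟩ := ih fun x hx => hW x (Finset.mem_insert_of_mem hx)
    obtain ⟨T, h4, h5, h6⟩ := hW w (Finset.mem_insert_self _ _)
    refine ⟨S ∪ T, Finset.insert_subset (Finset.mem_union_right _ h5)
      (h1.trans Finset.subset_union_left), Finset.mem_union_left _ h2, h3.union h6 h2 h4⟩

variable [Fintype V]

/-- every class is partition-connected -/
theorem pcOn_class (c : V) :
    PCOn src tgt k A (univ.filter fun v => cls src tgt k A v = cls src tgt k A c) := by
  obtain ⟨S, h1, h2, h3⟩ := exists_pcOn_superset (src := src) (tgt := tgt) (k := k) (A := A)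
    (v := c) (univ.filter fun v => cls src tgt k A v = cls src tgt k A c)
    fun w hw => (cls_eq_iff.1 (Finset.mem_filter.1 hw).2).symm
  have : S = univ.filter fun v => cls src tgt k A v = cls src tgt k A c :=
    Subset.antisymm (fun w hw => Finset.mem_filter.2 ⟨Finset.mem_univ _,
      cls_eq_iff.2 (h3.rel hw h2)⟩) h1
  exact this ▸ h3

theorem PC.rel (h : PC src tgt k A) (u v : V) : Rel src tgt k A u v :=
  PCOn.rel h (Finset.mem_univ u) (Finset.mem_univ v)

theorem PC.mono (h : PC src tgt k A) (hA : A ⊆ B) : PC src tgt k B := PCOn.mono h hA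

theorem PC.of_le [Nonempty V] (h : PC src tgt k A) (hk : k' ≤ k) : PC src tgt k' A :=
  PCOn.of_le h Finset.univ_nonempty hk

theorem PC.label {ι : Type} [DecidableEq ι] (h : PC src tgt k A) (f : V → ι) :
    k * (((univ.image f).card : ℝ) - 1) ≤ (cross src tgt A univ f).card := PCOn.label h f

theorem pc_of_rel [Nonempty V] (h : ∀ u v, Rel src tgt k A u v) : PC src tgt k A := by
  obtain ⟨c⟩ := ‹Nonempty V›
  have := pcOn_class (src := src) (tgt := tgt) (k := k) (A := A) c
  rwa [Finset.filter_true_of_mem fun v _ => cls_eq_iff.2 (h v c)] at this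

omit [Fintype V] in
/-- the edges crossing `f` cross a coarser labelling `g` or lie inside a part of `g` -/
theorem card_cross_le_add_sum {ι κ : Type} [DecidableEq ι] [DecidableEq κ] (f : V → ι)
    (g : V → κ) : (cross src tgt A S f).card ≤ (cross src tgt A S g).card +
      ∑ c ∈ S.image g, (cross src tgt A (S.filter fun v => g v = c) f).card := by
  classical
  refine le_trans (Finset.card_le_card (t := cross src tgt A S g ∪ (S.image g).biUnion
    fun c => cross src tgt A (S.filter fun v => g v = c) f) fun e he => ?_)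
    ((Finset.card_union_le _ _).trans (Nat.add_le_add_left Finset.card_biUnion_le _))
  obtain ⟨h1, h2, h3, h4⟩ := mem_cross.1 he
  by_cases h : g (src e) = g (tgt e)
  · exact Finset.mem_union_right _ (Finset.mem_biUnion.2 ⟨_, Finset.mem_image_of_mem g h3,
      mem_cross.2 ⟨h1, Finset.mem_filter.2 ⟨h2, h⟩, Finset.mem_filter.2 ⟨h3, rfl⟩, h4⟩⟩)
  · exact Finset.mem_union_left _ (mem_cross.2 ⟨h1, h2, h3, h⟩)

omit [Fintype V] in
/-- counting the labels of `f` inside the parts of a coarser labelling `g` -/
theorem sum_card_image_filter {ι κ : Type} [DecidableEq ι] [DecidableEq κ] {f : V → ι}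
    {g : V → κ} (h : ∀ u ∈ S, ∀ v ∈ S, f u = f v → g u = g v) :
    ∑ c ∈ S.image g, ((S.filter fun v => g v = c).image f).card = (S.image f).card := by
  rw [← Finset.card_biUnion]
  · congr 1
    ext x
    simp only [Finset.mem_biUnion, Finset.mem_image, Finset.mem_filter]
    constructor
    · rintro ⟨c, -, v, ⟨hv, -⟩, rfl⟩; exact ⟨v, hv, rfl⟩
    · rintro ⟨v, hv, rfl⟩; exact ⟨g v, ⟨v, hv, rfl⟩, v, ⟨hv, rfl⟩, rfl⟩
  · intro c _ c' _ hne
    rw [Function.onFun, Finset.disjoint_left]
    intro x hx hx'
    obtain ⟨u, hu, rfl⟩ := Finset.mem_image.1 hx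
    obtain ⟨v, hv, e⟩ := Finset.mem_image.1 hx'
    obtain ⟨hu1, hu2⟩ := Finset.mem_filter.1 hu
    obtain ⟨hv1, hv2⟩ := Finset.mem_filter.1 hv
    exact hne (hu2.symm.trans ((h v hv1 u hu1 e).symm.trans hv2))

omit [Fintype V] in
theorem cross_eq_empty_of_card_le_one {ι : Type} [DecidableEq ι] {f : V → ι}
    (h : (S.image f).card ≤ 1) : cross src tgt A S f = ∅ := by
  refine Finset.eq_empty_of_forall_notMem fun e he => ?_
  obtain ⟨-, h2, h3, h4⟩ := mem_cross.1 he
  exact h4 (Finset.card_le_one.1 h _ (Finset.mem_image_of_mem f h2) _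
    (Finset.mem_image_of_mem f h3))

/-- strict form of (P3) -/
theorem card_cross_cls_lt (h2 : 2 ≤ (S.image (cls src tgt k A)).card) :
    ((cross src tgt A S (cls src tgt k A)).card : ℝ)
      < k * (((S.image (cls src tgt k A)).card : ℝ) - 1) := by
  generalize hn : (S.image (cls src tgt k A)).card = n at h2 ⊢
  induction n using Nat.strong_induction_on generalizing S with
  | _ n ih =>
  by_contra hge
  rw [not_lt] at hge
  set c := cls src tgt k A with hc
  set S' := univ.filter fun v => c v ∈ S.image c with hS'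
  have hSS' : S ⊆ S' := fun v hv => Finset.mem_filter.2 ⟨Finset.mem_univ _,
    Finset.mem_image_of_mem c hv⟩
  have him : S'.image c = S.image c := by
    refine Subset.antisymm (fun x hx => ?_) (Finset.image_subset_image hSS')
    obtain ⟨v, hv, rfl⟩ := Finset.mem_image.1 hx
    exact (Finset.mem_filter.1 hv).2
  have hpc : PCOn src tgt k A S' := by
    refine pcOn_of_const (S.image fun w => univ.filter fun v => c v = c w) (fun T hT => ?_)
      fun g hg => ?_
    · obtain ⟨w, hw, rfl⟩ := Finset.mem_image.1 hT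
      exact ⟨fun v hv => Finset.mem_filter.2 ⟨Finset.mem_univ _, by
        rw [(Finset.mem_filter.1 hv).2]; exact Finset.mem_image_of_mem c hw⟩, pcOn_class w⟩
    · have hcg : ∀ u ∈ S', ∀ v ∈ S', c u = c v → g u = g v := fun u hu v _ e => by
        obtain ⟨w, hw, e'⟩ := Finset.mem_image.1 (Finset.mem_filter.1 hu).2
        exact hg _ (Finset.mem_image_of_mem _ hw) u (by simp [e']) v (by simp [e', e])
      have hsum := sum_card_image_filter hcg
      rw [him, hn] at hsum
      by_cases hq : (S'.image g).card ≤ 1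
      · have hne : (S'.image g).Nonempty := by
          have : (S.image c).Nonempty := Finset.card_pos.1 (by omega)
          exact ((Finset.image_nonempty.1 this).mono hSS').image g
        have : (S'.image g).card = 1 := le_antisymm hq (Finset.card_pos.2 hne)
        simp [this]
      · have hpos : ∀ x ∈ S'.image g, 1 ≤ ((S'.filter fun v => g v = x).image c).card :=
          fun x hx => by
            obtain ⟨v, hv, rfl⟩ := Finset.mem_image.1 hx
            exact Finset.card_pos.2 ⟨c v, Finset.mem_image_of_mem c (by simp [hv])⟩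
        have hpart : ∀ x ∈ S'.image g,
            ((cross src tgt A (S'.filter fun v => g v = x) c).card : ℝ)
              ≤ k * ((((S'.filter fun v => g v = x).image c).card : ℝ) - 1) := fun x hx => by
          by_cases h1 : ((S'.filter fun v => g v = x).image c).card ≤ 1
          · rw [cross_eq_empty_of_card_le_one h1, le_antisymm h1 (hpos x hx)]; simp
          · refine (ih _ ?_ rfl (by omega)).le
            obtain ⟨y, hy, hxy⟩ := Finset.exists_mem_ne (by omega : 1 < (S'.image g).card) x
            rw [← hsum, ← Finset.add_sum_erase _ _ hx]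
            have := Finset.single_le_sum (f := fun x => ((S'.filter fun v => g v = x).image c).card)
              (fun _ _ => Nat.zero_le _) (Finset.mem_erase.2 ⟨hxy, hy⟩)
            have := hpos y hy
            omega
        have h3 : ((cross src tgt A S' c).card : ℝ) ≤ (cross src tgt A S' g).card +
            ∑ x ∈ S'.image g, ((cross src tgt A (S'.filter fun v => g v = x) c).card : ℝ) := by
          exact_mod_cast card_cross_le_add_sum c g
        have h4 := Finset.sum_le_sum hpart
        have hsum' : ∑ x ∈ S'.image g, (((S'.filter fun v => g v = x).image c).card : ℝ) = n := by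
          exact_mod_cast hsum
        rw [← Finset.mul_sum, Finset.sum_sub_distrib, hsum'] at h4
        have h5 : ((cross src tgt A S c).card : ℝ) ≤ (cross src tgt A S' c).card :=
          Nat.cast_le.2 (Finset.card_le_card (cross_mono Subset.rfl hSS' c))
        simp only [Finset.sum_const, nsmul_eq_mul, mul_one] at h4
        have : k * (((S'.image g).card : ℝ) - 1) = k * ((n : ℝ) - 1)
          - k * ((n : ℝ) - (S'.image g).card) := by ring
        linarith
  have : (S.image c).card ≤ 1 := Finset.card_le_one.2 fun x hx y hy => by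
    obtain ⟨u, hu, rfl⟩ := Finset.mem_image.1 hx
    obtain ⟨v, hv, rfl⟩ := Finset.mem_image.1 hy
    exact cls_eq_iff.2 (hpc.rel (hSS' hu) (hSS' hv))
  omega

/-- (P3) on a set -/
theorem card_cross_cls_le' (hS : S.Nonempty) :
    ((cross src tgt A S (cls src tgt k A)).card : ℝ)
      ≤ k * (((S.image (cls src tgt k A)).card : ℝ) - 1) := by
  by_cases h : 2 ≤ (S.image (cls src tgt k A)).card
  · exact (card_cross_cls_lt h).le
  · have h1 : 1 ≤ (S.image (cls src tgt k A)).card := Finset.card_pos.2 (hS.image _)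
    rw [cross_eq_empty_of_card_le_one (by omega), show (S.image (cls src tgt k A)).card = 1 by omega]
    simp

theorem cast_Ncl [Nonempty V] :
    (Ncl src tgt k A : ℝ) = ((univ.image (cls src tgt k A)).card : ℝ) - 1 := by
  have h1 : 1 ≤ (univ.image (cls src tgt k A)).card :=
    Finset.card_pos.2 (Finset.univ_nonempty.image _)
  rw [Ncl, Nat.cast_sub h1, Nat.cast_one]

/-- (P3) at most `k (#classes - 1)` edges cross the classes -/
theorem card_cross_cls_le :
    ((cross src tgt A univ (cls src tgt k A)).card : ℝ) ≤ k * Ncl src tgt k A := by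
  rcases isEmpty_or_nonempty V with h | h
  · rw [cross_eq_empty_of_card_le_one (by simp)]
    simp [Ncl]
  · rw [cast_Ncl]; exact card_cross_cls_le' Finset.univ_nonempty


/-- (P4), sharp form: many edges outside `A` cross the classes of `A` -/
theorem PC.gap_mul_Ncl_le_cross [DecidableEq E] {gap : ℝ} {G : Finset E}
    (h : PC src tgt (k + gap) G) :
    gap * Ncl src tgt k A ≤ (cross src tgt (G \ A) univ (cls src tgt k A)).card := by
  rcases isEmpty_or_nonempty V with h0 | h0
  · simp [Ncl]
  have h1 := h (cls src tgt k A)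
  have h2 := card_cross_cls_le (src := src) (tgt := tgt) (k := k) (A := A)
  have h3 : (cross src tgt G univ (cls src tgt k A)).card ≤
      (cross src tgt A univ (cls src tgt k A)).card +
        (cross src tgt (G \ A) univ (cls src tgt k A)).card := by
    refine le_trans (Finset.card_le_card fun e he => ?_) (Finset.card_union_le _ _)
    obtain ⟨h4, h5⟩ := mem_cross.1 he
    by_cases h6 : e ∈ A
    · exact Finset.mem_union_left _ (mem_cross.2 ⟨h6, h5⟩)
    · exact Finset.mem_union_right _ (mem_cross.2 ⟨Finset.mem_sdiff.2 ⟨h4, h6⟩, h5⟩)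
  have h3' : ((cross src tgt G univ (cls src tgt k A)).card : ℝ) ≤
      (cross src tgt A univ (cls src tgt k A)).card +
        (cross src tgt (G \ A) univ (cls src tgt k A)).card := by exact_mod_cast h3
  rw [← cast_Ncl] at h1
  linarith

/-- (P4) -/
theorem PC.gap_mul_Ncl_le [DecidableEq E] {gap : ℝ} {G : Finset E}
    (h : PC src tgt (k + gap) G) : gap * Ncl src tgt k A ≤ (G \ A).card :=
  h.gap_mul_Ncl_le_cross.trans (Nat.cast_le.2 (Finset.card_le_card (cross_subset _)))

/-- a partition-connected graph has an edge in every cut -/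
theorem PC.exists_cut (h : PC src tgt k A) (hk : 0 < k) {u v : V} (hu : u ∈ S) (hv : v ∉ S) :
    ∃ e ∈ A, (src e ∈ S ∧ tgt e ∉ S) ∨ (src e ∉ S ∧ tgt e ∈ S) := by
  obtain ⟨e, he, -, -, h1⟩ := PCOn.exists_cross h hk (f := fun w => decide (w ∈ S))
    (Finset.mem_univ u) (Finset.mem_univ v) (by simp [hu, hv])
  refine ⟨e, he, ?_⟩
  by_cases h2 : src e ∈ S <;> by_cases h3 : tgt e ∈ S <;> simp_all


/-- a `k`-edge-connected graph is `k / 2`-partition-connected -/
theorem pc_of_cuts (hk : 0 ≤ k) (h : ∀ S : Finset V, S.Nonempty → S ≠ univ →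
    k ≤ (A.filter fun e => (src e ∈ S ∧ tgt e ∉ S) ∨ (src e ∉ S ∧ tgt e ∈ S)).card) :
    PC src tgt (k / 2) A := fun f => by
  classical
  by_cases hq : (univ.image f).card ≤ 1
  · have : ((univ.image f).card : ℝ) ≤ 1 := by exact_mod_cast hq
    refine le_trans ?_ (Nat.cast_nonneg _)
    nlinarith
  have h1 : ∀ c ∈ univ.image f, k ≤ (((cross src tgt A univ f).filter fun e => f (src e) = c).card
      + ((cross src tgt A univ f).filter fun e => f (tgt e) = c).card : ℝ) := fun c hc => by
    obtain ⟨v, -, rfl⟩ := Finset.mem_image.1 hc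
    obtain ⟨y, hy, hxy⟩ := Finset.exists_mem_ne (by omega : 1 < (univ.image f).card) (f v)
    obtain ⟨w, -, rfl⟩ := Finset.mem_image.1 hy
    refine (h (univ.filter fun u => f u = f v) ⟨v, by simp⟩ fun e => ?_).trans ?_
    · have : w ∈ univ.filter fun u => f u = f v := e.symm ▸ Finset.mem_univ w
      exact hxy (Finset.mem_filter.1 this).2
    · rw [← Nat.cast_add, Nat.cast_le]
      refine le_trans (Finset.card_le_card fun e he => ?_) (Finset.card_union_le _ _)
      simp only [Finset.mem_filter, Finset.mem_univ, true_and, Finset.mem_union, mem_cross] at he ⊢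
      rcases he with ⟨h1, ⟨h2, h3⟩ | ⟨h2, h3⟩⟩
      · exact Or.inl ⟨⟨h1, fun e => h3 (e.symm.trans h2)⟩, h2⟩
      · exact Or.inr ⟨⟨h1, fun e => h2 (e.trans h3)⟩, h3⟩
  have h2 := Finset.sum_le_sum h1
  rw [Finset.sum_add_distrib, ← Nat.cast_sum, ← Nat.cast_sum,
    ← Finset.card_eq_sum_card_fiberwise (fun e _ => by simp),
    ← Finset.card_eq_sum_card_fiberwise (fun e _ => by simp)] at h2
  simp only [Finset.sum_const, nsmul_eq_mul] at h2
  nlinarith

end Crest.Agent.X37
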